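import Vale.Agent.P359.Core.Gen.Square

/-!
P359: the square of `∑ M, B_M† B_M` for pair annihilators `B_M = 2^(-1/2) ∑ β[M;j,k] c_j c_k`
with an antisymmetric kernel `β` with orthonormal rows (note section 1a before recoupling).
-/

noncomputable section

namespace Vale.Agent.P359.Core

open Finset
open scoped ComplexInnerProductSpace

variable {H : Type*} [NormedAddCommGroup H] [InnerProductSpace ℂ H]
variable {κ : Type*} [Fintype κ] [DecidableEq κ] {μ : Type*}
variable {c d : κ → H →ₗ[ℂ] H} {β : μ → κ → κ → ℝ}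

/-- The pair annihilator. -/
def pairB (c : κ → H →ₗ[ℂ] H) (β : μ → κ → κ → ℝ) (M : μ) : H →ₗ[ℂ] H :=
  ((Real.sqrt 2)⁻¹ : ℂ) • ∑ j, ∑ k, (β M j k : ℂ) • (c j ∘ₗ c k)

/-- The pair creator. -/
def pairBd (d : κ → H →ₗ[ℂ] H) (β : μ → κ → κ → ℝ) (M : μ) : H →ₗ[ℂ] H :=
  ((Real.sqrt 2)⁻¹ : ℂ) • ∑ j, ∑ k, (β M j k : ℂ) • (d k ∘ₗ d j)

omit [DecidableEq κ] in
theorem pairB_apply (M : μ) (x : H) :
    pairB c β M x = ((Real.sqrt 2)⁻¹ : ℂ) • ∑ j, ∑ k, (β M j k : ℂ) • c j (c k x) := by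
  simp [pairB]

omit [DecidableEq κ] in
theorem pairBd_apply (M : μ) (x : H) :
    pairBd d β M x = ((Real.sqrt 2)⁻¹ : ℂ) • ∑ j, ∑ k, (β M j k : ℂ) • d k (d j x) := by
  simp [pairBd]

omit [DecidableEq κ] in
theorem sqrt_two_sq : ((Real.sqrt 2)⁻¹ : ℂ) * ((Real.sqrt 2)⁻¹ : ℂ) = 1 / 2 := by
  rw [← mul_inv, ← Complex.ofReal_mul, Real.mul_self_sqrt zero_le_two]
  norm_num

theorem IsCAR.adj_pair (h : IsCAR c d) (M : μ) (x y : H) :
    ⟪pairBd d β M x, y⟫ = ⟪x, pairB c β M y⟫ := by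
  simp [pairB_apply, pairBd_apply, h.adj,
    mul_comm]

theorem IsCAR.pairB_comm (h : IsCAR c d) (M N : μ) (x : H) :
    pairB c β M (pairB c β N x) = pairB c β N (pairB c β M x) := by
  have e : ∀ j k l m y, c j (c k (c l (c m y))) = c l (c m (c j (c k y))) := fun j k l m y => by
    have s : ∀ a b z, c a (c b z) = -c b (c a z) := fun a b z => eq_neg_of_add_eq_zero_left (h.cc a b z)
    rw [s k l, map_neg, s j l, neg_neg, s k m, map_neg, map_neg, s j m, map_neg, neg_neg]
  simp only [pairB_apply, map_smul, map_sum, Finset.smul_sum, smul_smul]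
  rw [Finset.sum_congr rfl fun j _ => Finset.sum_comm, Finset.sum_comm]
  refine Finset.sum_congr rfl fun l _ => ?_
  rw [Finset.sum_congr rfl fun j _ => Finset.sum_comm, Finset.sum_comm]
  refine Finset.sum_congr rfl fun m _ => Finset.sum_congr rfl fun j _ =>
    Finset.sum_congr rfl fun k _ => ?_
  rw [e]
  congr 1
  ring

/-- One annihilator of the commutator of a pair with a creator. -/
def halfB (c : κ → H →ₗ[ℂ] H) (β : μ → κ → κ → ℝ) (M : μ) (m : κ) : H →ₗ[ℂ] H :=
  ∑ j, (β M j m : ℂ) • c j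

theorem IsCAR.pairB_d (h : IsCAR c d) (hanti : ∀ M j k, β M k j = -β M j k) (M : μ) (m : κ)
    (y : H) :
    pairB c β M (d m y) = d m (pairB c β M y) + (Real.sqrt 2 : ℂ) • halfB c β M m y := by
  have s : ∀ a b z, c a (d b z) = (if a = b then z else 0) - d b (c a z) := fun a b z =>
    eq_sub_of_add_eq (h.cd a b z)
  have e : ∀ j k, c j (c k (d m y)) =
      (if k = m then c j y else 0) - (if j = m then c k y else 0) + d m (c j (c k y)) := fun j k => by
    rw [s k m, map_sub, s j m, apply_ite (c j), map_zero]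
    abel
  have e2 : ∑ j, ∑ k, (β M j k : ℂ) •
      ((if k = m then c j y else 0) - (if j = m then c k y else 0)) =
      (2 : ℂ) • halfB c β M m y := by
    simp only [smul_sub, smul_ite, smul_zero, Finset.sum_sub_distrib, Finset.sum_ite_eq',
      Finset.mem_univ, if_true, Finset.sum_ite_irrel, Finset.sum_const_zero, halfB,
      LinearMap.sum_apply, LinearMap.smul_apply]
    rw [show ∑ k, (β M m k : ℂ) • c k y = -∑ j, (β M j m : ℂ) • c j y by
      rw [← Finset.sum_neg_distrib]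
      exact Finset.sum_congr rfl fun k _ => by rw [hanti M k m]; simp]
    rw [sub_neg_eq_add, two_smul]
  simp only [pairB_apply, e, smul_add, Finset.sum_add_distrib, e2, map_smul, map_sum, smul_smul]
  rw [add_comm]
  congr 2
  rw [← Complex.ofReal_inv, show (2 : ℂ) = ((2 : ℝ) : ℂ) by norm_num, ← Complex.ofReal_mul,
    inv_mul_eq_div, Real.div_sqrt]

/-- The commutator of a pair annihilator with a pair creator. -/
theorem IsCAR.pairB_pairBd [DecidableEq μ] (h : IsCAR c d) (hanti : ∀ M j k, β M k j = -β M j k)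
    (horth : ∀ M N, ∑ j, ∑ k, β M j k * β N j k = if M = N then 1 else 0) (M N : μ) (y : H) :
    pairB c β M (pairBd d β N y) = (if M = N then y else 0)
      - (2 : ℂ) • ∑ j, ∑ l, (∑ k, β M j k * β N l k : ℝ) • d l (c j y)
      + pairBd d β N (pairB c β M y) := by
  have eA : ∀ k j z, halfB c β M k (d j z) = (β M j k : ℂ) • z - d j (halfB c β M k z) := by
    intro k j z
    simp only [halfB, LinearMap.sum_apply, LinearMap.smul_apply, map_sum, map_smul,
      eq_sub_of_add_eq (h.cd _ j z), smul_sub, smul_ite, smul_zero, Finset.sum_sub_distrib,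
      Finset.sum_ite_eq', Finset.mem_univ, if_true]
  have hs : ((Real.sqrt 2)⁻¹ : ℂ) * (Real.sqrt 2 : ℂ) = 1 :=
    inv_mul_cancel₀ (Complex.ofReal_ne_zero.2 (by positivity))
  have e1 : pairB c β M (pairBd d β N y) = pairBd d β N (pairB c β M y)
      + ∑ j, ∑ k, (β N j k : ℂ) • (d k (halfB c β M j y) - d j (halfB c β M k y))
      + ∑ j, ∑ k, ((β N j k : ℂ) * (β M j k : ℂ)) • y := by
    have e0 : ∀ j k, pairB c β M (d k (d j y)) = d k (d j (pairB c β M y)) + (Real.sqrt 2 : ℂ) •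
        (d k (halfB c β M j y) - d j (halfB c β M k y) + (β M j k : ℂ) • y) := fun j k => by
      rw [h.pairB_d hanti, h.pairB_d hanti, eA, map_add, map_smul, smul_add, smul_sub, smul_sub]
      abel
    have hs2 : ∀ b : ℂ, ((Real.sqrt 2)⁻¹ : ℂ) * (b * (Real.sqrt 2 : ℂ)) = b := fun b => by
      rw [mul_comm b, ← mul_assoc, hs, one_mul]
    rw [pairBd_apply, pairBd_apply, map_smul, map_sum]
    simp only [map_sum, map_smul, e0, smul_add, Finset.sum_add_distrib, Finset.smul_sum, smul_smul]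
    have hs3 : ∀ b r : ℂ, ((Real.sqrt 2)⁻¹ : ℂ) * (b * ((Real.sqrt 2 : ℂ) * r)) = b * r := fun b r => by
      rw [mul_left_comm _ b, ← mul_assoc ((Real.sqrt 2)⁻¹ : ℂ), hs, one_mul]
    simp only [hs2, hs3, add_assoc]
  have e2 : ∑ j, ∑ k, ((β N j k : ℂ) * (β M j k : ℂ)) • y = if M = N then y else 0 := by
    simp only [← Finset.sum_smul, ← Complex.ofReal_mul, ← Complex.ofReal_sum,
      mul_comm (β N _ _), horth]
    split_ifs <;> simp
  have e3 : ∀ f : κ → κ → H, ∑ j, ∑ k, (β N j k : ℂ) • f j k = -∑ j, ∑ k, (β N j k : ℂ) • f k j :=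
    fun f => by
      rw [← Finset.sum_neg_distrib, Finset.sum_comm]
      refine Finset.sum_congr rfl fun a _ => ?_
      rw [← Finset.sum_neg_distrib]
      exact Finset.sum_congr rfl fun b _ => by rw [hanti N a b]; simp
  have e4 : ∑ j, ∑ k, (β N j k : ℂ) • d k (halfB c β M j y) =
      -∑ j, ∑ l, (∑ k, β M j k * β N l k : ℝ) • d l (c j y) := by
    rw [e3]
    congr 1
    simp only [halfB, LinearMap.sum_apply, LinearMap.smul_apply, map_sum, map_smul, Finset.smul_sum,
      smul_smul, ← Complex.coe_smul, Complex.ofReal_mul, Finset.sum_smul]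
    rw [Finset.sum_congr rfl fun l _ => Finset.sum_comm, Finset.sum_comm]
    refine Finset.sum_congr rfl fun j _ => Finset.sum_congr rfl fun l _ =>
      Finset.sum_congr rfl fun k _ => ?_
    rw [mul_comm]
  rw [e1, e2]
  simp only [smul_sub, Finset.sum_sub_distrib]
  rw [e3 fun j k => d j (halfB c β M k y), sub_neg_eq_add, e4, two_smul]
  abel

/-- **The square of the pair Hamiltonian.** -/
theorem IsCAR.norm_ham_sq [Fintype μ] [DecidableEq μ] (h : IsCAR c d)
    (hanti : ∀ M j k, β M k j = -β M j k)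
    (horth : ∀ M N, ∑ j, ∑ k, β M j k * β N j k = if M = N then 1 else 0) (ψ : H) :
    ‖∑ M, pairBd d β M (pairB c β M ψ)‖ ^ 2 = ∑ M, ‖pairB c β M ψ‖ ^ 2
      - 2 * ∑ M, ∑ j, ∑ N, ∑ l, (∑ k, β M j k * β N l k) *
          (⟪c l (pairB c β M ψ), c j (pairB c β N ψ)⟫).re
      + ∑ M, ∑ N, ‖pairB c β N (pairB c β M ψ)‖ ^ 2 := by
  have hd : ∀ k (x z : H), ⟪x, d k z⟫ = ⟪c k x, z⟫ := fun k x z => by
    rw [← inner_conj_symm, h.adj, inner_conj_symm]
  have hmid : ∀ M N, (⟪pairB c β M ψ, (2 : ℂ) • ∑ j, ∑ l, (∑ k, β M j k * β N l k : ℝ) •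
      d l (c j (pairB c β N ψ))⟫).re = 2 * ∑ j, ∑ l, (∑ k, β M j k * β N l k) *
        (⟪c l (pairB c β M ψ), c j (pairB c β N ψ)⟫).re := fun M N => by
    simp only [inner_smul_right, inner_sum, ← Complex.coe_smul, hd]
    rw [show (2 : ℂ) = ((2 : ℝ) : ℂ) by norm_num, Complex.re_ofReal_mul, Complex.re_sum]
    simp only [Complex.re_sum, Complex.re_ofReal_mul]
  have hlast : ∀ M N, (⟪pairB c β M ψ, pairBd d β N (pairB c β M (pairB c β N ψ))⟫).re =
      ‖pairB c β N (pairB c β M ψ)‖ ^ 2 := fun M N => by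
    rw [← inner_conj_symm, h.adj_pair, h.pairB_comm M N, Complex.conj_re, inner_self_eq_norm_sq_to_K]
    simp [← Complex.ofReal_pow]
  rw [@norm_sq_eq_re_inner ℂ _ _ _ _ (∑ M, pairBd d β M (pairB c β M ψ)), sum_inner,
    RCLike.re_to_complex, Complex.re_sum]
  simp only [h.adj_pair, map_sum, h.pairB_pairBd hanti horth, inner_add_right, inner_sub_right,
    inner_sum, Finset.sum_add_distrib, Finset.sum_sub_distrib, Complex.add_re, Complex.sub_re,
    Complex.re_sum, hmid, hlast]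
  congr 1
  congr 1
  · refine Finset.sum_congr rfl fun M _ => ?_
    simp only [apply_ite (inner ℂ (pairB c β M ψ)), inner_zero_right, apply_ite Complex.re,
      Complex.zero_re, Finset.sum_ite_eq, Finset.mem_univ, if_true]
    exact (@norm_sq_eq_re_inner ℂ _ _ _ _ (pairB c β M ψ)).symm
  · simp only [Finset.mul_sum]
    exact Finset.sum_congr rfl fun M _ => Finset.sum_comm

end Vale.Agent.P359.Core
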