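import Mathlib

/-!
P359: the algebra of squares in a CAR family with real coefficient kernels (note sections 1a-1c,
before the recoupling of the kernels).
-/

noncomputable section

namespace Vale.Agent.P359.Core

open Finset
open scoped ComplexInnerProductSpace

variable {H : Type*} [NormedAddCommGroup H] [InnerProductSpace ℂ H]
variable {κ : Type*} [Fintype κ] [DecidableEq κ]

/-- A family of annihilation operators `c` with adjoints `d`. -/
structure IsCAR (c d : κ → H →ₗ[ℂ] H) : Prop where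
  adj : ∀ k x y, ⟪d k x, y⟫ = ⟪x, c k y⟫
  cd : ∀ k l x, c k (d l x) + d l (c k x) = if k = l then x else 0
  cc : ∀ k l x, c k (c l x) + c l (c k x) = 0

variable {c d : κ → H →ₗ[ℂ] H}

omit [Fintype κ] in
theorem IsCAR.inner_dd (h : IsCAR c d) (k l : κ) (x y : H) :
    ⟪d k x, d l y⟫ = (if k = l then ⟪x, y⟫ else 0) - ⟪c l x, c k y⟫ := by
  have e : c k (d l y) = (if k = l then y else 0) - d l (c k y) := eq_sub_of_add_eq (h.cd k l y)
  have e2 : ⟪x, d l (c k y)⟫ = ⟪c l x, c k y⟫ := by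
    rw [← inner_conj_symm, h.adj, inner_conj_symm]
  rw [h.adj, e, inner_sub_right, e2]
  split_ifs <;> simp

omit [DecidableEq κ] in
/-- Squared norm of a real combination. -/
theorem norm_sum_sq {ι : Type*} [Fintype ι] (a : ι → ℝ) (x : ι → H) :
    ‖∑ i, (a i : ℂ) • x i‖ ^ 2 = ∑ i, ∑ j, a i * a j * (⟪x i, x j⟫).re := by
  rw [norm_sq_eq_re_inner (𝕜 := ℂ), sum_inner, map_sum]
  refine Finset.sum_congr rfl fun i _ => ?_
  rw [inner_sum, map_sum]
  refine Finset.sum_congr rfl fun j _ => ?_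
  rw [inner_smul_left, inner_smul_right, Complex.conj_ofReal, RCLike.re_to_complex,
    ← mul_assoc, ← Complex.ofReal_mul, Complex.re_ofReal_mul]

/-- The square of a combination of creators. -/
theorem IsCAR.square {P S : Type*} [Fintype P] [Fintype S] (h : IsCAR c d)
    (a : S → P → κ → ℝ) (x : P → H) (y : S → H) :
    ∑ s, ‖(∑ p, ∑ k, (a s p k : ℂ) • d k (x p)) + y s‖ ^ 2 =
      ∑ p, ∑ q, (∑ s, ∑ k, a s p k * a s q k) * (⟪x p, x q⟫).re
        - ∑ p, ∑ k, ∑ q, ∑ l, (∑ s, a s p k * a s q l) * (⟪c l (x p), c k (x q)⟫).re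
        + 2 * ∑ s, ∑ p, ∑ k, a s p k * (⟪x p, c k (y s)⟫).re
        + ∑ s, ‖y s‖ ^ 2 := by
  have h1 : ∀ s, ‖(∑ p, ∑ k, (a s p k : ℂ) • d k (x p)) + y s‖ ^ 2 =
      ‖∑ pk : P × κ, (a s pk.1 pk.2 : ℂ) • d pk.2 (x pk.1)‖ ^ 2 +
        2 * ∑ p, ∑ k, a s p k * (⟪x p, c k (y s)⟫).re + ‖y s‖ ^ 2 := fun s => by
    rw [@norm_add_sq ℂ, Fintype.sum_prod_type]
    simp only [sum_inner, inner_smul_left, h.adj, map_sum, RCLike.re_to_complex,
      Complex.conj_ofReal, Complex.re_ofReal_mul]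
  simp only [h1, Finset.sum_add_distrib, ← Finset.mul_sum, add_left_inj]
  have h2 : ∀ s, ‖∑ pk : P × κ, (a s pk.1 pk.2 : ℂ) • d pk.2 (x pk.1)‖ ^ 2 =
      ∑ p, ∑ k, ∑ q, ∑ l, a s p k * a s q l *
        (((if k = l then ⟪x p, x q⟫ else 0) - ⟪c l (x p), c k (x q)⟫).re) := fun s => by
    rw [norm_sum_sq (fun pk : P × κ => a s pk.1 pk.2) (fun pk => d pk.2 (x pk.1))]
    simp only [Fintype.sum_prod_type, h.inner_dd]
  simp only [h2, Complex.sub_re]
  simp only [mul_sub, Finset.sum_sub_distrib]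
  congr 1
  · rw [Finset.sum_comm]
    refine Finset.sum_congr rfl fun p _ => ?_
    conv_lhs => enter [2, s]; rw [Finset.sum_comm]
    rw [Finset.sum_comm]
    refine Finset.sum_congr rfl fun q _ => ?_
    simp [Finset.sum_mul, apply_ite Complex.re]
  · rw [Finset.sum_comm]
    refine Finset.sum_congr rfl fun p _ => ?_
    rw [Finset.sum_comm]
    refine Finset.sum_congr rfl fun k _ => ?_
    rw [Finset.sum_comm]
    refine Finset.sum_congr rfl fun q _ => ?_
    rw [Finset.sum_comm]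
    refine Finset.sum_congr rfl fun l _ => ?_
    rw [Finset.sum_mul]

end Vale.Agent.P359.Core
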